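import Vale.Agent.P280.H490.Rev

/-! P280, stage 2: forms along a curve, and the action of two opposite fields on them. -/

open DirectSum Vale.Agent.P280.T Vale.Agent.P280.H127 Vale.Agent.P280.H93

namespace Vale.Agent.P280.H669

open Vale.Agent.P280.N Vale.Agent.P280.H490

/-- Reversal of the polynomials of degree `≤ N`. -/
noncomputable def rv (N : ℕ) : Polynomial ℂ →ₗ[ℂ] Polynomial ℂ :=
  (MvPolynomial.aeval ![Polynomial.X, (1 : Polynomial ℂ)]).toLinearMap.comp (hg N)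

theorem rv_mono {N i : ℕ} (hi : i ≤ N) (c : ℂ) :
    rv N (Polynomial.C c * Polynomial.X ^ i) = Polynomial.C c * Polynomial.X ^ (N - i) := by
  rw [rv, LinearMap.comp_apply, hg_mono hi, AlgHom.toLinearMap_apply, aeval_ex']

variable {r : ℕ} {R : Type} [CommRing R] [IsDomain R] [Algebra ℂ R]
  {𝒜 : ℕ × (Fin r → ℤ) → Submodule ℂ R}

/-- A form along the curve, of class `μ`. -/
def Frm (𝒜 : ℕ × (Fin r → ℤ) → Submodule ℂ R) (ν a : Fin r → ℤ) (n : ℕ) (μ : Fin r → ℤ)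
    (L : R →ₗ[ℂ] Polynomial ℂ) : Prop :=
  ∀ d m, ∀ h ∈ 𝒜 (d, m), L h ≠ 0 → ∃ i : ℕ, i ≤ d * n ∧ m = d • ν + i • a + μ ∧
    ∃ c : ℂ, L h = Polynomial.C c * Polynomial.X ^ i

theorem Frm.form {ν a : Fin r → ℤ} {n : ℕ} {μ : Fin r → ℤ} {L : R →ₗ[ℂ] Polynomial ℂ}
    (hL : Frm 𝒜 ν a n μ L) {d : ℕ} {m : Fin r → ℤ} {h : R} (hh : h ∈ 𝒜 (d, m)) :
    ∃ i : ℕ, i ≤ d * n ∧ (L h ≠ 0 → m = d • ν + i • a + μ) ∧
      ∃ c : ℂ, L h = Polynomial.C c * Polynomial.X ^ i := by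
  by_cases h0 : L h = 0
  · exact ⟨0, Nat.zero_le _, fun h => absurd h0 h, 0, by rw [h0, Polynomial.C_0, zero_mul]⟩
  · obtain ⟨i, hi, hm, hc⟩ := hL d m h hh h0
    exact ⟨i, hi, fun _ => hm, hc⟩

variable [GradedAlgebra 𝒜]

/-- The reversed form. -/
theorem Frm.exists_rev {ν ν' a : Fin r → ℤ} {n : ℕ} (hν : ν' = ν + n • a) {μ : Fin r → ℤ}
    {L : R →ₗ[ℂ] Polynomial ℂ} (hL : Frm 𝒜 ν a n μ L) :
    ∃ L' : R →ₗ[ℂ] Polynomial ℂ, Frm 𝒜 ν' (-a) n μ L' ∧
      (∀ d m, ∀ h ∈ 𝒜 (d, m), ∀ i : ℕ, i ≤ d * n → ∀ c : ℂ,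
        L h = Polynomial.C c * Polynomial.X ^ i →
        L' h = Polynomial.C c * Polynomial.X ^ (d * n - i)) ∧
      ∀ φ φ' : R →ₐ[ℂ] Polynomial ℂ,
        Frm 𝒜 ν a n 0 φ.toLinearMap →
        (∀ d m, ∀ h ∈ 𝒜 (d, m), ∀ i : ℕ, i ≤ d * n → ∀ c : ℂ,
          φ h = Polynomial.C c * Polynomial.X ^ i →
          φ' h = Polynomial.C c * Polynomial.X ^ (d * n - i)) →
        (∀ x z, L (x * z) = φ x * L z + φ z * L x) →
        ∀ x z, L' (x * z) = φ' x * L' z + φ' z * L' x := by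
  have key : ∀ d m, ∀ h ∈ 𝒜 (d, m), ∀ i : ℕ, i ≤ d * n → ∀ c : ℂ,
      L h = Polynomial.C c * Polynomial.X ^ i →
      H644.tw 𝒜 (fun i => (rv (i.1 * n)).comp L) h =
        Polynomial.C c * Polynomial.X ^ (d * n - i) := by
    intro d m h hh i hi c hc
    rw [H644.tw_mem 𝒜 _ hh, LinearMap.comp_apply, hc, rv_mono hi]
  have hval : ∀ d m, ∀ h ∈ 𝒜 (d, m), H644.tw 𝒜 (fun i => (rv (i.1 * n)).comp L) h =
      rv (d * n) (L h) := by
    intro d m h hh
    rw [H644.tw_mem 𝒜 _ hh, LinearMap.comp_apply]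
  refine ⟨H644.tw 𝒜 (fun i => (rv (i.1 * n)).comp L), ?_, key, ?_⟩
  · intro d m h hh hne
    obtain ⟨i, hi, hm, c, hc⟩ := hL.form hh
    have h0 : L h ≠ 0 := by
      intro h0
      rw [hval d m h hh, h0, map_zero] at hne
      exact hne rfl
    refine ⟨d * n - i, Nat.sub_le _ _, ?_, c, key d m h hh i hi c hc⟩
    have h1 : (d * n - i) • a + i • a = d • n • a := by
      rw [← add_smul, Nat.sub_add_cancel hi, mul_smul]
    rw [hm h0, hν, smul_add, ← h1, smul_neg]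
    abel
  · intro φ φ' hφ hrel hder
    have hd : H644.IsDer φ' (H644.tw 𝒜 (fun i => (rv (i.1 * n)).comp L)) := by
      refine H644.isDer_of_hom (𝒜 := 𝒜) ?_
      have half : ∀ (d d' : ℕ) (m m' : Fin r → ℤ), ∀ x ∈ 𝒜 (d, m), ∀ g ∈ 𝒜 (d', m'),
          rv ((d + d') * n) (φ x * L g) = φ' x * rv (d' * n) (L g) := by
        intro d d' m m' x hx g hg
        obtain ⟨i, hi, -, c, hc⟩ := hφ.form hx
        obtain ⟨j, hj, -, e, he⟩ := hL.form hg
        have hc' : φ x = Polynomial.C c * Polynomial.X ^ i := hc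
        have hij : i + j ≤ (d + d') * n := by
          rw [add_mul]
          omega
        have h1 : φ x * L g = Polynomial.C (c * e) * Polynomial.X ^ (i + j) := by
          rw [hc', he, Polynomial.C_mul, pow_add]
          ring
        have h3 : (d + d') * n - (i + j) = d * n - i + (d' * n - j) := by
          rw [add_mul]
          omega
        rw [h1, rv_mono hij, he, rv_mono hj, hrel d m x hx i hi c hc', h3, Polynomial.C_mul,
          pow_add]
        ring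
      rintro ⟨d, m⟩ ⟨d', m'⟩ x hx g hg
      rw [hval (d + d') (m + m') _ (SetLike.mul_mem_graded hx hg), hval _ _ _ hx, hval _ _ _ hg,
        hder, map_add, half d d' m m' x hx g hg]
      congr 1
      rw [add_comm d d']
      exact half d' d m' m g hg x hx
    exact hd

/-- The action of the field of weight `-a`. -/
theorem Frm.apply_F {ν a : Fin r → ℤ} {n : ℕ} {μ : Fin r → ℤ}
    {L L' : R →ₗ[ℂ] Polynomial ℂ} (hL : Frm 𝒜 ν a n μ L)
    (hrel : ∀ d m, ∀ h ∈ 𝒜 (d, m), ∀ i : ℕ, i ≤ d * n → ∀ c : ℂ,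
        L h = Polynomial.C c * Polynomial.X ^ i →
        L' h = Polynomial.C c * Polynomial.X ^ (d * n - i))
    {F : Derivation ℂ R R} (hF : IsHField 𝒜 (-a) F) {B : ℂ}
    (hB : ∀ x, L' (F x) = Polynomial.C B * Polynomial.derivative (L' x))
    {d : ℕ} {m : Fin r → ℤ} {h : R} (hh : h ∈ 𝒜 (d, m)) {i : ℕ} (hi : i ≤ d * n) {c : ℂ}
    (hc : L h = Polynomial.C c * Polynomial.X ^ i) :
    L (F h) = Polynomial.C (B * ((d * n : ℕ) - i : ℂ) * c) * Polynomial.X ^ (i + 1) := by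
  obtain ⟨j, hj, -, e, he⟩ := hL.form (hF d m h hh)
  have h1 := hrel d _ _ (hF d m h hh) j hj e he
  rw [hB, hrel d m h hh i hi c hc, Polynomial.derivative_C_mul_X_pow] at h1
  rw [he]
  by_cases hdi : d * n - i = 0
  · have h2 : i = d * n := by omega
    subst h2
    rw [Nat.sub_self, Nat.cast_zero, mul_zero, Polynomial.C_0, zero_mul, mul_zero] at h1
    have h3 : Polynomial.C e = 0 := (mul_eq_zero.1 h1.symm).resolve_right
      (pow_ne_zero _ Polynomial.X_ne_zero)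
    rw [h3, sub_self]
    simp
  · have h4 : (((d * n - i : ℕ) : ℂ)) = ((d * n : ℕ) : ℂ) - i := by
      rw [Nat.cast_sub hi]
    have h5 : Polynomial.C (B * (((d * n : ℕ) : ℂ) - i) * c) * Polynomial.X ^ (d * n - i - 1) =
        Polynomial.C e * Polynomial.X ^ (d * n - j) := by
      rw [← h1, h4, ← mul_assoc, ← Polynomial.C_mul]
      congr 2
      ring
    by_cases h6 : B * (((d * n : ℕ) : ℂ) - i) * c = 0
    · rw [h6, Polynomial.C_0, zero_mul] at h5
      have h3 : Polynomial.C e = 0 := (mul_eq_zero.1 h5.symm).resolve_right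
        (pow_ne_zero _ Polynomial.X_ne_zero)
      rw [h3, h6, Polynomial.C_0, zero_mul, zero_mul]
    · have h7 := congrArg (fun p => Polynomial.coeff p (d * n - i - 1)) h5
      simp only [Polynomial.coeff_C_mul_X_pow, if_true] at h7
      by_cases h8 : d * n - i - 1 = d * n - j
      · rw [if_pos h8] at h7
        have h9 : j = i + 1 := by omega
        rw [h7, h9]
      · rw [if_neg h8] at h7
        exact absurd h7 h6

/-- The action of the bracket. -/
theorem Frm.apply_br {ν a : Fin r → ℤ} {n : ℕ} {μ : Fin r → ℤ}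
    {L L' : R →ₗ[ℂ] Polynomial ℂ} (hL : Frm 𝒜 ν a n μ L)
    (hrel : ∀ d m, ∀ h ∈ 𝒜 (d, m), ∀ i : ℕ, i ≤ d * n → ∀ c : ℂ,
        L h = Polynomial.C c * Polynomial.X ^ i →
        L' h = Polynomial.C c * Polynomial.X ^ (d * n - i))
    {E F : Derivation ℂ R R} (hE : IsHField 𝒜 a E) (hF : IsHField 𝒜 (-a) F) {A B : ℂ}
    (hA : ∀ x, L (E x) = Polynomial.C A * Polynomial.derivative (L x))
    (hB : ∀ x, L' (F x) = Polynomial.C B * Polynomial.derivative (L' x))
    {d : ℕ} {m : Fin r → ℤ} {h : R} (hh : h ∈ 𝒜 (d, m)) {i : ℕ} (hi : i ≤ d * n) {c : ℂ}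
    (hc : L h = Polynomial.C c * Polynomial.X ^ i) :
    L (⁅F, E⁆ h) = Polynomial.C (A * B * (2 * i - (d * n : ℕ)) * c) * Polynomial.X ^ i := by
  rw [Derivation.commutator_apply, map_sub, hA, hL.apply_F hrel hF hB hh hi hc,
    Polynomial.derivative_C_mul_X_pow]
  have h1 := hA h
  rw [hc, Polynomial.derivative_C_mul_X_pow, ← mul_assoc, ← Polynomial.C_mul] at h1
  rw [hL.apply_F hrel hF hB (hE d m h hh) (i := i - 1) (by omega) h1]
  rcases Nat.eq_zero_or_pos i with h0 | h0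
  · subst h0
    simp only [Nat.cast_zero, mul_zero, Polynomial.C_0, zero_mul, zero_sub, Nat.zero_add,
      ← Polynomial.C_mul, ← mul_assoc, ← Polynomial.C_neg, ← neg_mul]
    congr 2
    push_cast
    ring
  · have h2 : i - 1 + 1 = i := by omega
    have h3 : (((i - 1 : ℕ) : ℂ)) = (i : ℂ) - 1 := by
      rw [Nat.cast_sub h0, Nat.cast_one]
    rw [h2, h3, Nat.add_sub_cancel, ← mul_assoc (Polynomial.C A), ← Polynomial.C_mul, ← sub_mul,
      ← Polynomial.C_sub]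
    congr 2
    push_cast
    ring

end Vale.Agent.P280.H669
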