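import Vale.Agent.P280.H155.BRoot
import Vale.Agent.P280.H989.AC

/-! P280, stage 2, block B3: the vector weights `f i + f j` of a component of type `A_3`. -/

open DirectSum Vale.Agent.P280.T Vale.Agent.P280.H127 Vale.Agent.P280.H93

set_option linter.unusedSectionVars false

namespace Vale.Agent.P280.H669

open Vale.Agent.P280.N Vale.Agent.P280.N.H989

theorem sum4 {r : ℕ} {f : Fin 4 → Fin r → ℤ} (hs : ∑ i, f i = 0) {i j k l : Fin 4} (hij : i ≠ j)
    (hik : i ≠ k) (hil : i ≠ l) (hjk : j ≠ k) (hjl : j ≠ l) (hkl : k ≠ l) :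
    f i + f j + (f k + f l) = 0 := by
  have h1 : ({i, j, k, l} : Finset (Fin 4)) = Finset.univ := by
    apply Finset.eq_univ_of_card
    rw [Finset.card_insert_of_notMem (by simp [hij, hik, hil]),
      Finset.card_insert_of_notMem (by simp [hjk, hjl]),
      Finset.card_insert_of_notMem (by simp [hkl]), Finset.card_singleton]
    rfl
  rw [← h1, Finset.sum_insert (by simp [hij, hik, hil]), Finset.sum_insert (by simp [hjk, hjl]),
    Finset.sum_insert (by simp [hkl]), Finset.sum_singleton, ← add_assoc] at hs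
  exact hs

variable {r : ℕ} {R : Type} [CommRing R] [IsDomain R] [Algebra ℂ R]
  {𝒜 : ℕ × (Fin r → ℤ) → Submodule ℂ R} [GradedAlgebra 𝒜]
  {N : ℤ} {f : Fin 4 → Fin r → ℤ} {β : Fin 4 → Fin 4 → ((Fin r → ℤ) →+ ℤ)}
  {E F : Fin 4 → Fin 4 → VF R}

/-- All vectors are weights as soon as one of them is. -/
theorem vec_wt (H : Hyp 𝒜) (hA : AC 𝒜 N 3 f β E F) (hvec : ∃ i j, i ≠ j ∧ Wt 𝒜 (f i + f j))
    (a b : Fin 4) (hab : a ≠ b) : Wt 𝒜 (f a + f b) := by
  obtain ⟨i, j, hij, hw⟩ := hvec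
  have sw : ∀ i j k : Fin 4, i ≠ j → i ≠ k → j ≠ k → Wt 𝒜 (f i + f j) → Wt 𝒜 (f k + f j) := by
    intro i j k h1 h2 h3 hw
    have h4 := reflect_wt H hA.N0 (hA.root k i h2.symm) hw (by
      rw [map_add, hA.be _ _ _ h2.symm, hA.be _ _ _ h2.symm, if_neg h2, if_pos rfl, if_neg h3,
        if_neg h1.symm]
      ring)
    have h5 : f i + f j + (f k - f i) = f k + f j := by abel
    rwa [h5] at h4
  have sy : ∀ i j : Fin 4, Wt 𝒜 (f i + f j) → Wt 𝒜 (f j + f i) := by
    intro i j h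
    rwa [add_comm]
  by_cases hai : a = i
  · subst hai
    by_cases hbj : b = j
    · subst hbj
      exact hw
    · exact sy _ _ (sw j a b hij.symm (Ne.symm hbj) hab (sy _ _ hw))
  · by_cases haj : a = j
    · subst haj
      by_cases hbi : b = i
      · subst hbi
        exact sy _ _ hw
      · exact sy _ _ (sw i a b hij (Ne.symm hbi) hab hw)
    · have h1 := sw i j a hij (Ne.symm hai) (Ne.symm haj) hw
      by_cases hbj : b = j
      · subst hbj
        exact h1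
      · exact sy _ _ (sw j a b (Ne.symm haj) (Ne.symm hbj) hab (sy _ _ h1))

/-- The `sl_2` of a vector. -/
theorem vec_root (H : Hyp 𝒜) (hA : AC 𝒜 N 3 f β E F) (hvec : ∃ i j, i ≠ j ∧ Wt 𝒜 (f i + f j))
    {i j k l : Fin 4} (hij : i ≠ j) (hik : i ≠ k) (hil : i ≠ l) (hjk : j ≠ k) (hjl : j ≠ l)
    (hkl : k ≠ l) : ∃ E' F' : VF R, Root0 𝒜 N (f i + f j) (β i k + β j l) E' F' := by
  have h4 := sum4 hA.sum hij hik hil hjk hjl hkl
  have e1 : f i + f j + -(f j + f k) = f i - f k := by abel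
  have e2 : f i + f j - -(f j + f k) = f j - f l := by
    rw [sub_neg_eq_add, eq_sub_iff_add_eq]
    calc f i + f j + (f j + f k) + f l = f j + (f i + f j + (f k + f l)) := by abel
      _ = f j := by rw [h4, add_zero]
  have b1 : β i k (f i + f j) = N := by
    rw [map_add, hA.be _ _ _ hik, hA.be _ _ _ hik, if_pos rfl, if_neg hik, if_neg hij.symm,
      if_neg hjk]
    ring
  have b2 : β j l (f i + f j) = N := by
    rw [map_add, hA.be _ _ _ hjl, hA.be _ _ _ hjl, if_pos rfl, if_neg hij, if_neg hil,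
      if_neg hjl]
    ring
  have b1' : β i k (-(f j + f k)) = N := by
    rw [map_neg, map_add, hA.be _ _ _ hik, hA.be _ _ _ hik, if_neg hij.symm, if_neg hjk,
      if_neg hik.symm, if_pos rfl]
    ring
  have b2' : β j l (-(f j + f k)) = -N := by
    rw [map_neg, map_add, hA.be _ _ _ hjl, hA.be _ _ _ hjl, if_pos rfl, if_neg hjl,
      if_neg hjk.symm, if_neg hkl]
    ring
  have r1 : Root 𝒜 N (f i + f j + -(f j + f k)) (β i k) (E i k) (F i k) := by
    rw [e1]
    exact hA.root i k hik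
  have r2 : Root 𝒜 N (f i + f j - -(f j + f k)) (β j l) (E j l) (F j l) := by
    rw [e2]
    exact hA.root j l hjl
  refine H155.boundary_root H hA.N0 (by rw [e1]; exact hA.vx i k hik)
    (by rw [e2]; exact hA.vx j l hjl) r1 r2 b1 b1' b2 b2' (vec_wt H hA hvec i j hij)
    (β i k + β j l) ?_ ?_
  · rw [AddMonoidHom.add_apply, b1, b2]
    have := hA.N0
    omega
  · intro ω hω
    rw [AddMonoidHom.add_apply, AddMonoidHom.add_apply, b1, b2]
    have := (abs_le.1 (H155.sum_le hA.N0 r1 r2 b1 b1' b2 b2' hω).1).2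
    omega

/-- **Closure** under the vectors. -/
theorem vec_ns (H : Hyp 𝒜) (hA : AC 𝒜 N 3 f β E F) (hvec : ∃ i j, i ≠ j ∧ Wt 𝒜 (f i + f j))
    {i j k l : Fin 4} (hij : i ≠ j) (hik : i ≠ k) (hil : i ≠ l) (hjk : j ≠ k) (hjl : j ≠ l)
    (hkl : k ≠ l) (q : FP 𝒜) {χ : Fin r → ℤ} (hna : ¬ q.Pi (-(f i + f j))) (hχ : q.Pi χ)
    (hβ : β i k χ + β j l χ < 0) : q.Pi (χ + (f i + f j)) := by
  obtain ⟨E', F', hr⟩ := vec_root H hA hvec hij hik hil hjk hjl hkl
  refine H155.nef_string0 H hA.N0 hr (fun ω hω => ?_) q hna hχ ?_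
  · rw [AddMonoidHom.add_apply]
    exact dvd_add ((hA.root i k hik).int ω hω) ((hA.root j l hjl).int ω hω)
  · rw [AddMonoidHom.add_apply]
    exact hβ

/-- The closure on the spins, `f k + (f i + f j) = -f l`. -/
theorem vec_spin (H : Hyp 𝒜) (hA : AC 𝒜 N 3 f β E F) (hvec : ∃ i j, i ≠ j ∧ Wt 𝒜 (f i + f j))
    {i j k l : Fin 4} (hij : i ≠ j) (hik : i ≠ k) (hil : i ≠ l) (hjk : j ≠ k) (hjl : j ≠ l)
    (hkl : k ≠ l) (q : FP 𝒜) (hna : ¬ q.Pi (-(f i + f j))) (hk : q.Pi (f k)) :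
    q.Pi (-f l) := by
  have h1 := vec_ns H hA hvec hij hik hil hjk hjl hkl q hna hk (by
    rw [hA.be _ _ _ hik, hA.be _ _ _ hjl, if_neg hik.symm, if_pos rfl, if_neg hjk.symm,
      if_neg hkl]
    have := hA.N0
    omega)
  have h4 := sum4 hA.sum hij hik hil hjk hjl hkl
  have e1 : f k + (f i + f j) = -f l := by
    rw [eq_neg_iff_add_eq_zero, ← h4]
    abel
  rwa [e1] at h1

/-- The closure on the spins, `-f i + (f i + f j) = f j`. -/
theorem vec_spin' (H : Hyp 𝒜) (hA : AC 𝒜 N 3 f β E F) (hvec : ∃ i j, i ≠ j ∧ Wt 𝒜 (f i + f j))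
    {i j k l : Fin 4} (hij : i ≠ j) (hik : i ≠ k) (hil : i ≠ l) (hjk : j ≠ k) (hjl : j ≠ l)
    (hkl : k ≠ l) (q : FP 𝒜) (hna : ¬ q.Pi (-(f i + f j))) (hi : q.Pi (-f i)) :
    q.Pi (f j) := by
  have h1 := vec_ns H hA hvec hij hik hil hjk hjl hkl q hna hi (by
    rw [map_neg, map_neg, hA.be _ _ _ hik, hA.be _ _ _ hjl, if_pos rfl, if_neg hik, if_neg hij,
      if_neg hil]
    have := hA.N0
    omega)
  have e1 : -f i + (f i + f j) = f j := by abel
  rwa [e1] at h1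

end Vale.Agent.P280.H669

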