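import Vale.Agent.P280.H79.Final
import Vale.Agent.P280.H669.VecNs

/-! P280, stage 2, block B3: the induction for the interior weights of a component of type `A_3`
with vectors. -/

open DirectSum Vale.Agent.P280.T Vale.Agent.P280.H127

set_option linter.unusedSectionVars false

namespace Vale.Agent.P280.H669

open Vale.Agent.P280.N Vale.Agent.P280.N.H989 Vale.Agent.P280.H490

variable {r : ℕ} {R : Type} [CommRing R] [IsDomain R] [Algebra ℂ R]
  {𝒜 : ℕ × (Fin r → ℤ) → Submodule ℂ R} [GradedAlgebra 𝒜]
  {N : ℤ} {f : Fin 4 → Fin r → ℤ} {β : Fin 4 → Fin 4 → ((Fin r → ℤ) →+ ℤ)}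
  {E F : Fin 4 → Fin 4 → VF R} {c : (Fin r → ℤ) →+ ℤ}

/-- The functional `tau`. -/
def tau (β : Fin 4 → Fin 4 → ((Fin r → ℤ) →+ ℤ)) : (Fin r → ℤ) →+ ℤ := β 0 3 + β 1 3 + β 2 3

theorem tau_f (hA : AC 𝒜 N 3 f β E F) (k : Fin 4) :
    tau β (f k) = if k = 3 then -(3 * N) else N := by
  rw [tau, AddMonoidHom.add_apply, AddMonoidHom.add_apply, hA.be _ _ _ (by decide),
    hA.be _ _ _ (by decide), hA.be _ _ _ (by decide)]
  fin_cases k
  · simp
  · simp
  · simp
  · simp
    ring

/-- The lines through `-f 3`. -/
theorem lam_line (hA : AC 𝒜 N 3 f β E F) (htau : ∀ μ, Wt 𝒜 μ → 0 < tau β μ → 0 < c μ)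
    {a : Fin r → ℤ} (ha : Wt 𝒜 a) (hca : c a < 0) {k : ℕ} (hk : 1 ≤ k)
    (h : Wt 𝒜 (-f 3 - k • a)) : k = 1 ∧ ∃ i : Fin 4, i ≠ 3 ∧ a = -f i := by
  have hN := hA.N0
  have hta : tau β a ≤ 0 := by
    by_contra hcon
    have := htau a ha (not_le.1 hcon)
    omega
  have h3 : tau β (f 3) = -(3 * N) := by rw [tau_f hA, if_pos rfl]
  have hval : tau β (-f 3 - k • a) = 3 * N - k * tau β a := by
    rw [map_sub, map_neg, h3, map_nsmul, nsmul_eq_mul]
    ring
  have hge : 3 * N ≤ tau β (-f 3 - k • a) := by
    rw [hval]
    have : (0 : ℤ) ≤ (k : ℤ) * -tau β a := mul_nonneg (by omega) (by omega)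
    linarith
  rcases hA.S _ h with h1 | ⟨i, j, hij, h1⟩ | ⟨i, h1 | h1⟩ | ⟨-, i, j, hij, h1⟩
  · exfalso
    have h2 : tau β (-f 3 - k • a) = 0 := by
      rw [tau, AddMonoidHom.add_apply, AddMonoidHom.add_apply, h1 0 3 (by decide),
        h1 1 3 (by decide), h1 2 3 (by decide)]
      ring
    omega
  · have h2 : tau β (-f 3 - k • a) = tau β (f i) - tau β (f j) := by rw [h1, map_sub]
    rw [tau_f hA, tau_f hA] at h2
    by_cases hi : i = 3
    · rw [if_pos hi] at h2
      split_ifs at h2 <;> omega
    · rw [if_neg hi] at h2
      by_cases hj : j = 3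
      · subst hj
        have h5 : k • a = -f i := by
          have h6 : k • a = -f 3 - (f i - f 3) := by
            rw [← h1]
            abel
          rw [h6]
          abel
        have h6 : β i 3 (k • a) = -N := by
          rw [h5, map_neg, hA.be _ _ _ hi, if_pos rfl, if_neg hi]
          ring
        obtain ⟨m, hm⟩ := (hA.root i 3 hi).int a ha
        rw [map_nsmul, nsmul_eq_mul, hm] at h6
        have h7 : ((k : ℤ) * m + 1) * N = 0 := by linear_combination h6
        have h8 := (mul_eq_zero.1 h7).resolve_right hN.ne'
        have h9 : (k : ℤ) ∣ 1 := ⟨-m, by linear_combination h8⟩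
        have h10 : k = 1 := by
          have := Int.le_of_dvd one_pos h9
          omega
        subst h10
        rw [one_smul] at h5
        exact ⟨rfl, i, hi, h5⟩
      · rw [if_neg hj] at h2
        omega
  · rw [h1, tau_f hA] at hge
    split_ifs at hge <;> omega
  · by_cases hi : i = 3
    · subst hi
      exfalso
      have h5 : k • a = 0 := by
        rw [sub_eq_iff_eq_add] at h1
        exact (left_eq_add.1 h1)
      have h6 : c (k • a) = 0 := by rw [h5, map_zero]
      rw [map_nsmul, nsmul_eq_mul] at h6
      rcases mul_eq_zero.1 h6 with h7 | h7 <;> omega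
    · rw [h1, map_neg, tau_f hA, if_neg hi] at hge
      omega
  · rw [h1, map_add, tau_f hA, tau_f hA] at hge
    split_ifs at hge <;> omega

theorem real_vec_sorted (H : Hyp 𝒜) (hA : AC 𝒜 N 3 f β E F)
    (hvec : ∃ i j, i ≠ j ∧ Wt 𝒜 (f i + f j)) (hc : ∀ μ, Wt 𝒜 μ → c μ ≠ 0)
    (hord : ∀ i j : Fin 4, i < j → c (f j) < c (f i))
    (htau : ∀ μ, Wt 𝒜 μ → 0 < tau β μ → 0 < c μ)
    (hbx : ∀ z : FP 𝒜, (∀ i j : Fin 4, i < j → ¬ z.Pi (f j - f i)) →
      (∀ i j : Fin 4, i < j → (j : ℕ) ≤ 2 → ¬ z.Pi (-(f i + f j))) → z.Pi (-f 3) →
      z.Pi (f 0) → False)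
    (hsrc : ∀ p : FP 𝒜, Pos c p → p.Pi (-f 3) → (∀ i : Fin 4, (i : ℕ) ≤ 2 → ¬ p.Pi (f i)) →
      N2.Real 𝒜 p (-f 3)) :
    ∀ z : FP 𝒜, z.Pi (-f 3) → N2.Real 𝒜 z (-f 3) := by
  have hN := hA.N0
  obtain ⟨K, hK⟩ := H79.nu_bound H c
  have key : ∀ (m : ℕ) (z : FP 𝒜), c z.ν - K < m → z.Pi (-f 3) → N2.Real 𝒜 z (-f 3) := by
    intro m
    induction m with
    | zero =>
      intro z hz
      have := hK z
      omega
    | succ m ih =>
      intro z hz hl
      by_contra hbad
      have hneg : ∀ a, z.Pi a → c a < 0 → ∃ i : Fin 4, i ≠ 3 ∧ a = -f i := by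
        intro a ha hca
        by_contra hcon
        obtain ⟨z', n, φ, hφ⟩ := exists_curve H z ha
        have hmul : ∀ k : ℤ, -f 3 ≠ k • a := by
          intro k hk
          have h3 : tau β (-f 3) = 3 * N := by
            rw [map_neg, tau_f hA, if_pos rfl]
            ring
          have h1 : tau β (-f 3) = k * tau β a := by rw [hk, map_zsmul, smul_eq_mul]
          have h4 : β 0 1 (-f 3) = k * β 0 1 a := by rw [hk, map_zsmul, smul_eq_mul]
          have hta : tau β a ≤ 0 := by
            by_contra hcon
            have := htau a ⟨z, ha⟩ (not_le.1 hcon)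
            omega
          have hk0 : k < 0 := by
            by_contra h5
            have : 0 ≤ k * -tau β a := mul_nonneg (by omega) (by omega)
            linarith
          -- `a = f 3` or so
          rcases hA.S a ⟨z, ha⟩ with h5 | ⟨i, j, hij, h5⟩ | ⟨i, h5 | h5⟩ | ⟨-, i, j, hij, h5⟩
          · have h6 : tau β a = 0 := by
              rw [tau, AddMonoidHom.add_apply, AddMonoidHom.add_apply, h5 0 3 (by decide),
                h5 1 3 (by decide), h5 2 3 (by decide)]
              ring
            rw [h6, mul_zero] at h1
            omega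
          · rw [h5, map_sub, tau_f hA, tau_f hA, h3] at h1
            have h7 : 3 * N = k * 0 ∨ 3 * N = k * (4 * N) ∨ 3 * N = k * -(4 * N) := by
              split_ifs at h1
              · left; linarith
              · right; right; linarith
              · right; left; linarith
              · left; linarith
            rcases h7 with h8 | h8 | h8
            · omega
            · have h9 : (3 - 4 * k) * N = 0 := by linear_combination h8
              have := (mul_eq_zero.1 h9).resolve_right hN.ne'
              omega
            · have h9 : (3 + 4 * k) * N = 0 := by linear_combination h8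
              have := (mul_eq_zero.1 h9).resolve_right hN.ne'
              omega
          · by_cases hi : i = 3
            · have h7 := H.ind z.q z.ν (-f 3) a z.nv z.fix hl ha ⟨1, k, one_ne_zero, by omega,
                by rw [one_smul, hk]⟩
              apply hc _ ⟨z, hl⟩
              rw [h5, hi, neg_eq_iff_add_eq_zero, ← two_smul ℤ] at h7
              have h8 := (smul_eq_zero.1 h7).resolve_left two_ne_zero
              rw [h8, neg_zero, map_zero]
            · rw [h5, tau_f hA, if_neg hi, h3] at h1
              have h9 : (3 - k) * N = 0 := by linear_combination h1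
              have := (mul_eq_zero.1 h9).resolve_right hN.ne'
              omega
          · by_cases hi : i = 3
            · rw [h3, h5, hi, map_neg, tau_f hA, if_pos rfl] at h1
              have h9 : (3 - 3 * k) * N = 0 := by linear_combination h1
              have := (mul_eq_zero.1 h9).resolve_right hN.ne'
              omega
            · exact hcon ⟨i, hi, h5⟩
          · rw [h5, map_add, tau_f hA, tau_f hA, h3] at h1
            have h7 : 3 * N = k * (2 * N) ∨ 3 * N = k * -(2 * N) ∨ 3 * N = k * -(6 * N) := by
              split_ifs at h1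
              · right; right; linarith
              · right; left; linarith
              · right; left; linarith
              · left; linarith
            rcases h7 with h8 | h8 | h8
            · have h9 : (3 - 2 * k) * N = 0 := by linear_combination h8
              have := (mul_eq_zero.1 h9).resolve_right hN.ne'
              omega
            · have h9 : (3 + 2 * k) * N = 0 := by linear_combination h8
              have := (mul_eq_zero.1 h9).resolve_right hN.ne'
              omega
            · have h9 : (3 + 6 * k) * N = 0 := by linear_combination h8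
              have := (mul_eq_zero.1 h9).resolve_right hN.ne'
              omega
        have hk0 : ∀ k : ℕ, z'.Pi (-f 3 - k • a) → k = 0 := by
          intro k hk
          by_contra hk0
          exact hcon (lam_line hA htau ⟨z, ha⟩ hca (by omega) ⟨z', hk⟩).2
        obtain ⟨k, hk⟩ := H79.pi_other H hφ hmul hl
        have h0 := hk0 k hk
        subst h0
        rw [zero_smul, sub_zero] at hk
        have hlt : c z'.ν - K < m := by
          rw [hφ.nu, map_add, map_nsmul, nsmul_eq_mul]
          have h1 : (n : ℤ) * c a ≤ -1 := by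
            have h2 : (1 : ℤ) ≤ n := by exact_mod_cast hφ.n1
            nlinarith
          push_cast at hz
          linarith
        obtain ⟨D, hD, hDv, hD0⟩ := N2.ne_of_real hk (ih z' hlt hk)
        apply hbad
        refine N2.real_of_ne H hl ⟨D, hD, hDv, ?_⟩
        exact curve_u' H hφ hD hDv hmul hl (k0 := 0) hk0 (H79.ne_of_val' hφ hD hDv hD0)
      have hroots : ∀ i j : Fin 4, i < j → ¬ z.Pi (f j - f i) := by
        intro i j hij h1
        obtain ⟨k, hk3, hk⟩ := hneg _ h1 (by
          rw [map_sub]
          have := hord i j hij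
          omega)
        have h2 := congrArg (tau β) hk
        rw [map_sub, map_neg, tau_f hA, tau_f hA, tau_f hA, if_neg hk3] at h2
        split_ifs at h2 <;> omega
      have hvecs : ∀ i j : Fin 4, i < j → (j : ℕ) ≤ 2 → ¬ z.Pi (-(f i + f j)) := by
        intro i j hij hj h1
        have hi3 : i ≠ 3 := by
          rintro rfl
          have : (3 : ℕ) < j := hij
          omega
        have hj3 : j ≠ 3 := by
          rintro rfl
          exact absurd hj (by decide)
        have h2 : tau β (f i + f j) = 2 * N := by
          rw [map_add, tau_f hA, tau_f hA, if_neg hi3, if_neg hj3]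
          ring
        have h3 := htau _ (vec_wt H hA hvec i j hij.ne) (by omega)
        obtain ⟨k, hk3, hk⟩ := hneg _ h1 (by
          rw [map_neg]
          omega)
        have h4 := congrArg (tau β) hk
        rw [map_neg, map_neg, h2, tau_f hA, if_neg hk3] at h4
        omega
      have hf0 : ¬ z.Pi (f 0) := fun h1 => hbx z hroots hvecs hl h1
      have hfi : ∀ i : Fin 4, i ≠ 3 → ¬ z.Pi (f i) := by
        intro i hi3 h1
        by_cases hi0 : i = 0
        · rw [hi0] at h1
          exact hf0 h1
        have hlt : (0 : Fin 4) < i := Fin.pos_iff_ne_zero.2 hi0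
        have h2 := H155.nef_string0 H hN (H155.toRoot0 (hA.root 0 i (Ne.symm hi0)))
          (hA.root 0 i (Ne.symm hi0)).int z (by
            rw [neg_sub]
            exact hroots 0 i hlt) h1 (by
            rw [hA.be _ _ _ (Ne.symm hi0), if_neg hi0, if_pos rfl]
            omega)
        have h3 : f i + (f 0 - f i) = f 0 := by abel
        rw [h3] at h2
        exact hf0 h2
      have hnf : ∀ i : Fin 4, i ≠ 3 → ¬ z.Pi (-f i) := by
        intro i hi3 h1
        fin_cases i
        · refine hfi 1 (by decide) (vec_spin' H hA hvec (i := 0) (j := 1) (k := 2) (l := 3)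
            (by decide) (by decide) (by decide) (by decide) (by decide) (by decide) z
            (hvecs 0 1 (by decide) (by decide)) h1)
        · refine hfi 0 (by decide) (vec_spin' H hA hvec (i := 1) (j := 0) (k := 2) (l := 3)
            (by decide) (by decide) (by decide) (by decide) (by decide) (by decide) z
            (by rw [add_comm]; exact hvecs 0 1 (by decide) (by decide)) h1)
        · refine hfi 0 (by decide) (vec_spin' H hA hvec (i := 2) (j := 0) (k := 1) (l := 3)
            (by decide) (by decide) (by decide) (by decide) (by decide) (by decide) z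
            (by rw [add_comm]; exact hvecs 0 2 (by decide) (by decide)) h1)
        · exact hi3 rfl
      apply hbad
      refine hsrc z ?_ hl ?_
      · intro χ hχ
        by_contra hneg'
        obtain ⟨i, hi3, hi⟩ := hneg χ hχ (not_le.1 hneg')
        exact hnf i hi3 (by rwa [← hi])
      · intro i hi
        refine hfi i ?_
        rintro rfl
        exact absurd hi (by decide)
  intro z hz
  obtain ⟨m, hm⟩ : ∃ m : ℕ, c z.ν - K < m := ⟨(c z.ν - K).toNat + 1, by omega⟩
  exact key m z hm hz

end Vale.Agent.P280.H669

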