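import Vale.Agent.P280.H669.RealVec
import Vale.Agent.P280.H155.BX
import Vale.Agent.P280.H79.B3Src
import Vale.Agent.P280.H376.Ch3

/-! P280, stage 2, block B3: the interior weights of a component of type `A_3` with vectors. -/

open DirectSum Vale.Agent.P280.T Vale.Agent.P280.H127

namespace Vale.Agent.P280.H669

open Vale.Agent.P280.N Vale.Agent.P280.N.H989

variable {r : ℕ} {R : Type} [CommRing R] [IsDomain R] [Algebra ℂ R]
  {𝒜 : ℕ × (Fin r → ℤ) → Submodule ℂ R} [GradedAlgebra 𝒜]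
  {N : ℤ} {f : Fin (3 + 1) → Fin r → ℤ} {β : Fin (3 + 1) → Fin (3 + 1) → ((Fin r → ℤ) →+ ℤ)}
  {E F : Fin (3 + 1) → Fin (3 + 1) → VF R}

/-- **Block B3.** -/
theorem real_vec (H : Hyp 𝒜) (hA : AC 𝒜 N 3 f β E F)
    (hvec : ∃ i j, i ≠ j ∧ Wt 𝒜 (f i + f j)) :
    ∀ z : FP 𝒜, z.Pi (-f (Fin.last 3)) → N2.Real 𝒜 z (-f (Fin.last 3)) := by
  obtain ⟨c, hc, hord, htau⟩ := H376.exists_ch3' H hA
  refine real_vec_sorted H hA hvec hc hord htau (fun z hr he h3 h0 =>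
    H155.bx H hA hvec z hr he h3 h0) (fun p hp _ hno => ?_)
  refine N2.b3_src H hA c hc (fun μ hμ hcμ => ?_) hp hno
  by_contra hneg
  have h1 := htau (-μ) (wt_neg H hμ) (by
    rw [map_neg]
    change 0 < -N2.tau3 β μ
    omega)
  rw [map_neg] at h1
  omega

end Vale.Agent.P280.H669

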