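import Vale.Agent.P280.H490.Along
import Vale.Agent.P280.N.B01
import Vale.Agent.P280.H669.Frm
import Vale.Agent.P280.H224.WTor

/-! P280, stage 2: closure of the tangent weights under the boundary weights `mu` which are not
vertices (no multiplicity one for the fields of weight `mu`, no diagonal bracket). -/

open DirectSum Vale.Agent.P280.T Vale.Agent.P280.H127 Vale.Agent.P280.H93

set_option linter.unusedSectionVars false

namespace Vale.Agent.P280.H669

open Vale.Agent.P280.N Vale.Agent.P280.H490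

variable {r : ℕ} {R : Type} [CommRing R] [IsDomain R] [Algebra ℂ R]
  {𝒜 : ℕ × (Fin r → ℤ) → Submodule ℂ R} [GradedAlgebra 𝒜]

/-- The action of a field in the direction of the curve on a form. -/
theorem der_E (H : Hyp 𝒜) {y y' : FP 𝒜} {a : Fin r → ℤ} {n : ℕ}
    {φ : R →ₐ[ℂ] Polynomial ℂ} (hφ : Curve y y' a n φ) {E : Derivation ℂ R R}
    (hE : IsHField 𝒜 a E) {A : ℂ}
    (hA : ∀ x, φ (E x) = Polynomial.C A * Polynomial.derivative (φ x)) {μ : Fin r → ℤ}
    (hl : ∀ k : ℤ, μ ≠ k • a) (hno : ∀ k : ℕ, ¬ y.Pi (μ + a + k • a))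
    {δ : R →ₗ[ℂ] Polynomial ℂ} (hδ : ∀ x z, δ (x * z) = φ x * δ z + φ z * δ x)
    (hdeg : Frm 𝒜 y.ν a n μ δ) :
    ∀ x, δ (E x) = Polynomial.C A * Polynomial.derivative (δ x) := by
  let G : R →ₗ[ℂ] Polynomial ℂ := δ.comp (E : R →ₗ[ℂ] R) - A • Polynomial.derivative.comp δ
  have hG : ∀ x, G x = δ (E x) - Polynomial.C A * Polynomial.derivative (δ x) := by
    intro x
    rw [← Polynomial.smul_eq_C_mul]
    rfl
  by_contra hcon
  obtain ⟨k, -, -, -, hpi⟩ := along_pi (y := y) (a := a) (μ := μ + a) (φ := φ) (δ := G) (j := 0)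
    hφ.ev (by
      intro x z
      rw [hG, hG, hG, E.leibniz, smul_eq_mul, smul_eq_mul, map_add, hδ, hδ, hδ, hA, hA,
        Polynomial.derivative_add, Polynomial.derivative_mul, Polynomial.derivative_mul]
      ring)
    (by
      intro d m h hh hne
      rw [hG] at hne
      obtain ⟨i, -, hm, c, hc⟩ := hdeg.form hh
      obtain ⟨j, -, hm', c', hc'⟩ := hdeg.form (hE d m h hh)
      by_cases h0 : δ (E h) = 0
      · rw [h0, zero_sub] at hne
        have h1 : δ h ≠ 0 := by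
          intro h1
          rw [h1, Polynomial.derivative_zero, mul_zero, neg_zero] at hne
          exact hne rfl
        have h2 : i ≠ 0 := by
          rintro rfl
          rw [hc, pow_zero, mul_one, Polynomial.derivative_C, mul_zero, neg_zero] at hne
          exact hne rfl
        obtain ⟨i, rfl⟩ := Nat.exists_eq_succ_of_ne_zero h2
        refine ⟨i, ?_, -(A * (c * ((i + 1 : ℕ) : ℂ))), ?_⟩
        · rw [hm h1, Nat.succ_eq_add_one, succ_nsmul]
          abel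
        · rw [hG, h0, hc, Polynomial.derivative_C_mul_X_pow, zero_sub, ← mul_assoc,
            ← Polynomial.C_mul, Polynomial.C_neg, neg_mul]
          rfl
      · have h3 := hm' h0
        have h4 : m = d • y.ν + j • a + (μ + a) := by
          rw [sub_eq_iff_eq_add] at h3
          rw [h3]
          abel
        by_cases h1 : δ h = 0
        · refine ⟨j, h4, c', ?_⟩
          rw [hG, h1, Polynomial.derivative_zero, mul_zero, sub_zero, hc']
        · have h5 := hm h1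
          have h6 : i = j + 1 := by
            apply H490.nsmul_inj (ne_zero_of_curve H hφ)
            rw [h4] at h5
            rw [succ_nsmul]
            have h7 : d • y.ν + j • a + (μ + a) = d • y.ν + (j • a + a) + μ := by abel
            rw [h7] at h5
            exact (add_left_cancel (add_right_cancel h5)).symm
          subst h6
          refine ⟨j, h4, c' - A * (c * ((j + 1 : ℕ) : ℂ)), ?_⟩
          rw [hG, hc', hc, Polynomial.derivative_C_mul_X_pow, ← mul_assoc, ← Polynomial.C_mul,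
            Nat.add_sub_cancel, ← sub_mul, ← Polynomial.C_sub])
    (by
      intro k hk
      apply hl (k - 1)
      rw [sub_smul, one_smul, ← hk]
      abel)
    (by
      by_contra hcon'
      push Not at hcon'
      apply hcon
      intro x
      have := hcon' x
      rw [hG] at this
      exact sub_eq_zero.1 this)
    (fun h i hi => absurd hi (Nat.not_lt_zero i))
  rw [natCast_zsmul] at hpi
  exact hno k hpi

/-- Left eigenfunctionals. -/
theorem left_eig {D : Derivation ℂ R R} {lam κ : ℂ} {S : Submodule ℂ R}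
    (hS : ∀ h ∈ S, D h ∈ S) (t : R →ₗ[ℂ] ℂ) (ht : ∀ h ∈ S, t (D h) = κ * t h) {h : R}
    (hh : h ∈ S) (hne : t h ≠ 0) {n : ℕ} (hn : (fun x : R => D x - lam • x)^[n] h = 0) :
    κ = lam := by
  by_contra hcon
  have key : ∀ n : ℕ, (fun x : R => D x - lam • x)^[n] h ∈ S ∧
      t ((fun x : R => D x - lam • x)^[n] h) = (κ - lam) ^ n * t h := by
    intro n
    induction n with
    | zero => exact ⟨hh, by simp⟩
    | succ n ih =>
      rw [Function.iterate_succ_apply']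
      refine ⟨Submodule.sub_mem _ (hS _ ih.1) (Submodule.smul_mem _ _ ih.1), ?_⟩
      rw [map_sub, ht _ ih.1, map_smul, smul_eq_mul, ih.2]
      ring
  have h1 := (key n).2
  rw [hn, map_zero] at h1
  exact (mul_ne_zero (pow_ne_zero n (sub_ne_zero.2 hcon)) hne) h1.symm

/-- A field which commutes with `D`. -/
theorem comm_eig {D W : Derivation ℂ R R} {α : ℂ} {β : (Fin r → ℤ) →+ ℂ}
    (hT : ∀ d m, ∀ h ∈ 𝒜 (d, m), ∃ n : ℕ,
      (fun x : R => D x - ((d : ℂ) * α + β m) • x)^[n] h = 0) {χ : Fin r → ℤ}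
    (hW : IsHField 𝒜 χ W) (hW0 : W ≠ 0) (hc : ∀ x, W (D x) = D (W x)) : β χ = 0 := by
  by_contra hne
  apply hW0
  have key : (W : R →ₗ[ℂ] R) = 0 := by
    apply linearMap_ext_graded 𝒜
    rintro ⟨d, m⟩ h hh
    change W h = 0
    obtain ⟨n, hn⟩ := hT d m h hh
    obtain ⟨N, hN⟩ := hT d _ _ (hW d m h hh)
    have e1 : ∀ (c : ℂ) (n : ℕ) (x : R), (((D : R →ₗ[ℂ] R) - c • (1 : R →ₗ[ℂ] R)) ^ n) x =
        (fun x : R => D x - c • x)^[n] x := by
      intro c n x
      rw [Module.End.pow_apply]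
      rfl
    have e2 : ∀ (c : ℂ) (n : ℕ) (x : R), W ((fun x : R => D x - c • x)^[n] x) =
        (fun x : R => D x - c • x)^[n] (W x) := by
      intro c n x
      induction n with
      | zero => rfl
      | succ n ih =>
        rw [Function.iterate_succ_apply', Function.iterate_succ_apply', ← ih, map_sub, hc,
          W.map_smul]
    refine H224.nil_inj (Z := (D : R →ₗ[ℂ] R) - ((d : ℂ) * α + β (m - χ)) • (1 : R →ₗ[ℂ] R))
      (k := β χ) hne (N := N) n (W h) ?_ ?_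
    · rw [e1, hN]
    · have e3 : (D : R →ₗ[ℂ] R) - ((d : ℂ) * α + β (m - χ)) • (1 : R →ₗ[ℂ] R) -
          β χ • (1 : R →ₗ[ℂ] R) = (D : R →ₗ[ℂ] R) - ((d : ℂ) * α + β m) • (1 : R →ₗ[ℂ] R) := by
        rw [sub_sub, ← add_smul, map_sub]
        congr 2
        ring
      rw [e3, e1, ← e2, hn, map_zero]
  ext x
  exact LinearMap.congr_fun key x

/-- The eigenvalue on a form. -/
theorem Frm.eig {a ν μ : Fin r → ℤ} (ha : a ≠ 0) {n : ℕ} {L : R →ₗ[ℂ] Polynomial ℂ}
    (hL : Frm 𝒜 ν a n μ L) {D : Derivation ℂ R R} (hD : ∀ d m, ∀ h ∈ 𝒜 (d, m), D h ∈ 𝒜 (d, m))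
    {K : ℂ} (hbr : ∀ d m, ∀ h ∈ 𝒜 (d, m), ∀ i : ℕ, i ≤ d * n → ∀ c : ℂ,
      L h = Polynomial.C c * Polynomial.X ^ i →
      L (D h) = Polynomial.C (K * (2 * i - (d * n : ℕ)) * c) * Polynomial.X ^ i)
    {α : ℂ} {β : (Fin r → ℤ) →+ ℂ}
    (hT : ∀ d m, ∀ h ∈ 𝒜 (d, m), ∃ n : ℕ,
      (fun x : R => D x - ((d : ℂ) * α + β m) • x)^[n] h = 0)
    {d : ℕ} {m : Fin r → ℤ} {h : R} (hh : h ∈ 𝒜 (d, m)) {i : ℕ} (hi : i ≤ d * n)
    (hm : m = d • ν + i • a + μ) (hne : (L h).coeff i ≠ 0) :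
    K * (2 * i - (d * n : ℕ)) = (d : ℂ) * α + β m := by
  obtain ⟨N, hN⟩ := hT d m h hh
  refine left_eig (S := 𝒜 (d, m)) (hD d m) ((Polynomial.lcoeff ℂ i).comp L) ?_ hh hne hN
  intro g hg
  rw [LinearMap.comp_apply, LinearMap.comp_apply, Polynomial.lcoeff_apply, Polynomial.lcoeff_apply]
  obtain ⟨j, hj, hm', c, hc⟩ := hL.form hg
  by_cases h0 : L g = 0
  · have h1 := hbr d m g hg i hi 0 (by rw [h0, Polynomial.C_0, zero_mul])
    rw [h1, h0, mul_zero, Polynomial.C_0, zero_mul, Polynomial.coeff_zero, mul_zero]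
  · have h2 : j = i := by
      apply H490.nsmul_inj ha
      have h3 := hm' h0
      rw [hm] at h3
      exact (add_left_cancel (add_right_cancel h3)).symm
    subst h2
    rw [hbr d m g hg j hj c hc, hc, Polynomial.coeff_C_mul_X_pow, Polynomial.coeff_C_mul_X_pow,
      if_pos rfl, if_pos rfl]

/-- Two opposite fields along a curve. -/
theorem exists_AB (H : Hyp 𝒜) {y y' : FP 𝒜} {a : Fin r → ℤ} {n : ℕ}
    {φ φ' : R →ₐ[ℂ] Polynomial ℂ} (hφ : Curve y y' a n φ) (hφ' : Curve y' y (-a) n φ')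
    (hrel : ∀ d m, ∀ h ∈ 𝒜 (d, m), ∀ i : ℕ, i ≤ d * n → ∀ c : ℂ,
        φ h = Polynomial.C c * Polynomial.X ^ i →
        φ' h = Polynomial.C c * Polynomial.X ^ (d * n - i))
    {E F : Derivation ℂ R R} (hE : IsHField 𝒜 a E) (hF : IsHField 𝒜 (-a) F) {α : ℂ}
    {β : (Fin r → ℤ) →+ ℂ}
    (hT : ∀ d m, ∀ h ∈ 𝒜 (d, m), ∃ n : ℕ,
      (fun x : R => ⁅F, E⁆ x - ((d : ℂ) * α + β m) • x)^[n] h = 0) :
    ∃ A B : ℂ, (∀ x, φ (E x) = Polynomial.C A * Polynomial.derivative (φ x)) ∧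
      (∀ x, φ' (F x) = Polynomial.C B * Polynomial.derivative (φ' x)) ∧ β a = 2 * (A * B) ∧
      α + β y.ν = -(A * B) * n ∧ α + β y'.ν = A * B * n := by
  obtain ⟨A, hA⟩ := along_E H hφ hE
  obtain ⟨B, hB⟩ := along_E H hφ' hF
  have ha := ne_zero_of_curve H hφ
  have hD : ∀ d m, ∀ h ∈ 𝒜 (d, m), ⁅F, E⁆ h ∈ 𝒜 (d, m) := by
    intro d m h hh
    rw [Derivation.commutator_apply]
    have h1 := hF _ _ _ (hE d m h hh)
    have h2 := hE _ _ _ (hF d m h hh)
    rw [sub_neg_eq_add, sub_add_cancel] at h1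
    rw [sub_neg_eq_add, add_sub_cancel_right] at h2
    exact Submodule.sub_mem _ h1 h2
  have hL : Frm 𝒜 y.ν a n 0 φ.toLinearMap := by
    intro d m h hh hne
    obtain ⟨i, hi, hm, hc⟩ := hφ.hom d m h hh hne
    exact ⟨i, hi, by rw [add_zero]; exact hm, hc⟩
  have hbr : ∀ d m, ∀ h ∈ 𝒜 (d, m), ∀ i : ℕ, i ≤ d * n → ∀ c : ℂ,
      φ.toLinearMap h = Polynomial.C c * Polynomial.X ^ i →
      φ.toLinearMap (⁅F, E⁆ h) =
        Polynomial.C (A * B * (2 * i - (d * n : ℕ)) * c) * Polynomial.X ^ i := by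
    intro d m h hh i hi c hc
    exact hL.apply_br (L' := φ'.toLinearMap) hrel hE hF hA hB hh hi hc
  have hK := fun {d : ℕ} {m : Fin r → ℤ} {h : R} (hh : h ∈ 𝒜 (d, m)) {i : ℕ} (hi : i ≤ d * n)
    (hm : m = d • y.ν + i • a + 0) (hne : (φ.toLinearMap h).coeff i ≠ 0) =>
    hL.eig ha hD hbr hT hh hi hm hne
  -- the value at `y`
  have k1 : α + β y.ν = -(A * B) * n := by
    obtain ⟨f, hf, hfne⟩ := exists_deg_one_ne H.hX.gen y.nv y.fix
    have h1 := hK hf (i := 0) (Nat.zero_le _) (by rw [one_smul, zero_smul, add_zero, add_zero]) (by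
      rw [Polynomial.coeff_zero_eq_eval_zero]
      change (φ f).eval 0 ≠ 0
      rw [hφ.ev]
      exact hfne)
    push_cast at h1
    linear_combination -h1
  have k2 : α + β y'.ν = A * B * n := by
    obtain ⟨f, hf, hfne⟩ := exists_deg_one_ne H.hX.gen y'.nv y'.fix
    have h1 := hK hf (i := 1 * n) le_rfl (by rw [one_smul, one_mul, add_zero, hφ.nu]) (by
      change (φ f).coeff (1 * n) ≠ 0
      rw [hφ.ev' 1 _ f hf]
      exact hfne)
    push_cast at h1
    linear_combination -h1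
  refine ⟨A, B, hA, hB, ?_, k1, k2⟩
  obtain ⟨d, h, hh, hne⟩ := hφ.un
  have h1d : 1 ≤ d * n := by
    by_contra h0
    have h1 : d * n = 0 := by omega
    obtain ⟨i, hi, -, c, hc⟩ := hL.form hh
    have h2 : i = 0 := by omega
    subst h2
    change φ h = _ at hc
    rw [hc, Polynomial.coeff_C_mul_X_pow, if_neg one_ne_zero] at hne
    exact hne rfl
  have h1 := hK hh (i := 1) h1d (by rw [one_smul, add_zero]) hne
  push_cast at h1
  rw [map_add, map_nsmul, nsmul_eq_mul] at h1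
  linear_combination -h1 - (d : ℂ) * k1

/-- The value at a tangent weight which extends along the curve. -/
theorem beta_zero (H : Hyp 𝒜) {y y' : FP 𝒜} {a : Fin r → ℤ} {n : ℕ}
    {φ φ' : R →ₐ[ℂ] Polynomial ℂ} (hφ : Curve y y' a n φ) (hφ' : Curve y' y (-a) n φ')
    (hrel : ∀ d m, ∀ h ∈ 𝒜 (d, m), ∀ i : ℕ, i ≤ d * n → ∀ c : ℂ,
        φ h = Polynomial.C c * Polynomial.X ^ i →
        φ' h = Polynomial.C c * Polynomial.X ^ (d * n - i))
    {E F : Derivation ℂ R R} (hE : IsHField 𝒜 a E) (hF : IsHField 𝒜 (-a) F) {α : ℂ}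
    {β : (Fin r → ℤ) →+ ℂ}
    (hT : ∀ d m, ∀ h ∈ 𝒜 (d, m), ∃ n : ℕ,
      (fun x : R => ⁅F, E⁆ x - ((d : ℂ) * α + β m) • x)^[n] h = 0) {ph : Fin r → ℤ}
    (hl : ∀ k : ℤ, ph ≠ k • a) (hno1 : ∀ k : ℕ, ¬ y.Pi (ph + a + k • a))
    (hno2 : ∀ k : ℕ, ¬ y'.Pi (ph + -a + k • -a)) (hy : y'.Pi ph) : β ph = 0 := by
  obtain ⟨A, B, hA, hB, -, -, k2⟩ := exists_AB H hφ hφ' hrel hE hF hT
  have ha := ne_zero_of_curve H hφ
  have hD : ∀ d m, ∀ h ∈ 𝒜 (d, m), ⁅F, E⁆ h ∈ 𝒜 (d, m) := by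
    intro d m h hh
    rw [Derivation.commutator_apply]
    have h1 := hF _ _ _ (hE d m h hh)
    have h2 := hE _ _ _ (hF d m h hh)
    rw [sub_neg_eq_add, sub_add_cancel] at h1
    rw [sub_neg_eq_add, add_sub_cancel_right] at h2
    exact Submodule.sub_mem _ h1 h2
  have hL : Frm 𝒜 y.ν a n 0 φ.toLinearMap := by
    intro d m h hh hne
    obtain ⟨i, hi, hm, hc⟩ := hφ.hom d m h hh hne
    exact ⟨i, hi, by rw [add_zero]; exact hm, hc⟩
  obtain ⟨t, ht, htw, htne⟩ := hy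
  obtain ⟨δ, hδ, hdeg, htop⟩ := exists_lift H hφ ht htw
  have hfδ : Frm 𝒜 y.ν a n ph δ := hdeg
  obtain ⟨δ', hfδ', hrel', hder'⟩ := hfδ.exists_rev hφ.nu
  have hδ' := hder' φ φ' hL hrel hδ
  have hAδ := der_E H hφ hE hA hl hno1 hδ hfδ
  have hBδ := der_E H hφ' hF hB (fun k hk => hl (-k) (by rw [hk, smul_neg, neg_smul])) hno2 hδ'
    hfδ'
  obtain ⟨d, m, h, hh, hne⟩ := htne 0
  rw [zero_mul, zero_mul] at hne
  have hm : m = d • y'.ν + ph := htw d m h hh hne
  have h1 := hfδ.eig ha hD (K := A * B) (fun d m h hh i hi c hc =>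
    hfδ.apply_br hrel' hE hF hAδ hBδ hh hi hc) hT hh (i := d * n) le_rfl
    (by rw [hm, hφ.nu, smul_add, mul_smul]) (by rw [htop d m h hh]; exact hne)
  rw [hm, map_add, map_nsmul, nsmul_eq_mul] at h1
  push_cast at h1
  linear_combination -h1 - (d : ℂ) * k2

/-- The value zero at a point where the two fields vanish. -/
theorem beta_zero' (H : Hyp 𝒜) {y : FP 𝒜} {a : Fin r → ℤ}
    {E F : Derivation ℂ R R} (hE : IsHField 𝒜 a E) (hF : IsHField 𝒜 (-a) F) {α : ℂ}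
    {β : (Fin r → ℤ) →+ ℂ}
    (hT : ∀ d m, ∀ h ∈ 𝒜 (d, m), ∃ n : ℕ,
      (fun x : R => ⁅F, E⁆ x - ((d : ℂ) * α + β m) • x)^[n] h = 0) {ph : Fin r → ℤ}
    (hE0 : ∀ h, y.q (E h) = 0) (hF0 : ∀ h, y.q (F h) = 0)
    (hno1 : ¬ y.Pi (ph + a)) (hno2 : ¬ y.Pi (ph + -a)) (h10 : ph + a ≠ 0) (h20 : ph + -a ≠ 0)
    (hy : y.Pi ph) : β ph = 0 := by
  have hD : ∀ d m, ∀ h ∈ 𝒜 (d, m), ⁅F, E⁆ h ∈ 𝒜 (d, m) := by
    intro d m h hh
    rw [Derivation.commutator_apply]
    have h1 := hF _ _ _ (hE d m h hh)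
    have h2 := hE _ _ _ (hF d m h hh)
    rw [sub_neg_eq_add, sub_add_cancel] at h1
    rw [sub_neg_eq_add, add_sub_cancel_right] at h2
    exact Submodule.sub_mem _ h1 h2
  obtain ⟨t, ht, htw, htne⟩ := hy
  have hv : ∀ {χ : Fin r → ℤ} {G : Derivation ℂ R R}, IsHField 𝒜 χ G → (∀ h, y.q (G h) = 0) →
      ¬ y.Pi (ph + χ) → ph + χ ≠ 0 → ∀ h, t (G h) = 0 := by
    intro χ G hG hG0 hn h0
    have key : t.comp G.toLinearMap = 0 := by
      apply linearMap_ext_graded 𝒜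
      rintro ⟨d, m⟩ h hh
      by_contra hne
      exact hn (H587.tangentWeight_of_ne y.fix h0 (H224.isTangent_comp hG0 ht)
        (H224.hasWeight_comp hG htw) d m hh hne)
    intro h
    exact LinearMap.congr_fun key h
  have tE := hv hE hE0 hno1 h10
  have tF := hv hF hF0 hno2 h20
  obtain ⟨f, hf, hfne⟩ := exists_deg_one_ne H.hX.gen y.nv y.fix
  obtain ⟨N, hN⟩ := hT 1 y.ν f hf
  have k1 : (0 : ℂ) = ((1 : ℕ) : ℂ) * α + β y.ν :=
    left_eig (S := 𝒜 (1, y.ν)) (hD 1 y.ν) y.q.toLinearMap (fun g _ => by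
      rw [Derivation.commutator_apply, map_sub, AlgHom.toLinearMap_apply,
        AlgHom.toLinearMap_apply, hE0, hF0]
      ring) hf hfne hN
  obtain ⟨d, m, h, hh, hne⟩ := htne 0
  rw [zero_mul, zero_mul] at hne
  have hm : m = d • y.ν + ph := htw d m h hh hne
  obtain ⟨N', hN'⟩ := hT d m h hh
  have k2 : (0 : ℂ) = (d : ℂ) * α + β m :=
    left_eig (S := 𝒜 (d, m)) (hD d m) t (fun g _ => by
      rw [Derivation.commutator_apply, map_sub, tE, tF]
      ring) hh hne hN'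
  rw [hm, map_add, map_nsmul, nsmul_eq_mul] at k2
  push_cast at k1
  linear_combination -k2 + (d : ℂ) * k1

/-- **Closure** under a boundary weight `mu` which is not a vertex. -/
theorem vec_closure (H : Hyp 𝒜) {mu ph : Fin r → ℤ}
    (hE : ∀ y : FP 𝒜, y.Pi mu → ∃ E : VF R, Glob E ∧ HV 𝒜 mu E ∧ ¬ ValV y.q E 0)
    (hF : ∀ y : FP 𝒜, y.Pi (-mu) → ∃ F : VF R, Glob F ∧ HV 𝒜 (-mu) F ∧ ¬ ValV y.q F 0)
    (hmu : Wt 𝒜 mu) {w : VF R} (hw : Glob w) (hwv : HV 𝒜 (2 • ph + mu) w) (hw0 : w ≠ 0)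
    (h1 : ∀ D : VF R, Glob D → HV 𝒜 (2 • ph) D → D = 0)
    (h2 : ∀ D : VF R, Glob D → HV 𝒜 (2 • (ph + mu)) D → D = 0)
    (hs : ∀ k : ℤ, k ≠ 0 → k ≠ 1 → ¬ Wt 𝒜 (ph + k • mu))
    (y : FP 𝒜) (hy : y.Pi ph) (hna : ¬ y.Pi (-mu)) : y.Pi (ph + mu) := by
  by_contra hcon
  obtain ⟨y₁, hy₁⟩ := hmu
  obtain ⟨p, n₀, φ₀, hφ₀⟩ := exists_curve H y₁ hy₁
  obtain ⟨φ₁, hφ₁, -⟩ := H490.exists_rev H hφ₀
  obtain ⟨φ₂, hφ₂, hrel⟩ := H490.exists_rev H hφ₁
  obtain ⟨EV, hEg, hEv, hEne⟩ := hE y₁ hy₁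
  obtain ⟨FV, hFg, hFv, hFne⟩ := hF p hφ₀.ya'
  obtain ⟨E, rfl, hEh⟩ := hEg.exists_hder hEv
  obtain ⟨F, rfl, hFh⟩ := hFg.exists_hder hFv
  obtain ⟨W, rfl, hWh⟩ := hw.exists_hder hwv
  have hval : ∀ (z : FP 𝒜) (G : Derivation ℂ R R), (∀ h, z.q (G h) = 0) → ValV z.q (toVF G) 0 := by
    intro z G hG h
    rw [toVF_iK]
    have h3 := Val.iK (q := z.q) (G h)
    rw [hG] at h3
    exact h3
  have hEh' : IsHField 𝒜 (-(-mu)) E := by rwa [neg_neg]
  -- the bracket
  have hD : ∀ d m, ∀ h ∈ 𝒜 (d, m), ⁅E, F⁆ h ∈ 𝒜 (d, m) := by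
    intro d m h hh
    rw [Derivation.commutator_apply]
    have h3 := hEh _ _ _ (hFh d m h hh)
    have h4 := hFh _ _ _ (hEh d m h hh)
    rw [sub_neg_eq_add, add_sub_cancel_right] at h3
    rw [sub_neg_eq_add, sub_add_cancel] at h4
    exact Submodule.sub_mem _ h3 h4
  obtain ⟨α, β, hT⟩ := H.tor ⁅E, F⁆ hD
  -- the value at `mu`
  obtain ⟨A, B, hA, hB, hβ, -, -⟩ := exists_AB H hφ₁ hφ₂ hrel hFh hEh' hT
  have hA0 : A ≠ 0 := by
    rintro rfl
    apply hFne
    apply hval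
    intro h
    rw [← hφ₁.ev, hA, Polynomial.C_0, zero_mul, Polynomial.eval_zero]
  have hB0 : B ≠ 0 := by
    rintro rfl
    apply hEne
    apply hval
    intro h
    rw [← hφ₂.ev, hB, Polynomial.C_0, zero_mul, Polynomial.eval_zero]
  have hβmu : β mu ≠ 0 := by
    intro h0
    rw [map_neg, h0, neg_zero] at hβ
    exact mul_ne_zero two_ne_zero (mul_ne_zero hA0 hB0) hβ.symm
  -- the value at `2 ph + mu`
  have hFW : ⁅F, W⁆ = 0 := by
    have h3 := h1 ⁅toVF F, toVF W⁆ (hFg.lie hw) (by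
      have h4 := HV.lie hFv hwv
      have h5 : -mu + (2 • ph + mu) = 2 • ph := by abel
      rwa [h5] at h4)
    rw [← toVF_lie] at h3
    ext x
    apply IsFractionRing.injective R (FractionRing R)
    have h6 := toVF_iK ⁅F, W⁆ x
    rw [h3] at h6
    rw [Derivation.zero_apply, map_zero]
    exact h6.symm
  have hEW : ⁅E, W⁆ = 0 := by
    have h3 := h2 ⁅toVF E, toVF W⁆ (hEg.lie hw) (by
      have h4 := HV.lie hEv hwv
      have h5 : mu + (2 • ph + mu) = 2 • (ph + mu) := by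
        rw [smul_add]
        abel
      rwa [h5] at h4)
    rw [← toVF_lie] at h3
    ext x
    apply IsFractionRing.injective R (FractionRing R)
    have h6 := toVF_iK ⁅E, W⁆ x
    rw [h3] at h6
    rw [Derivation.zero_apply, map_zero]
    exact h6.symm
  have hW0 : W ≠ 0 := by
    rintro rfl
    apply hw0
    apply vf_ext
    intro x
    rw [toVF_iK]
    exact map_zero (algebraMap R (FractionRing R))
  have cF : ∀ x, W (F x) = F (W x) := by
    intro x
    have h3 := congrArg (fun D : Derivation ℂ R R => D x) hFW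
    simp only [Derivation.commutator_apply, Derivation.zero_apply] at h3
    exact (sub_eq_zero.1 h3).symm
  have cE : ∀ x, W (E x) = E (W x) := by
    intro x
    have h3 := congrArg (fun D : Derivation ℂ R R => D x) hEW
    simp only [Derivation.commutator_apply, Derivation.zero_apply] at h3
    exact (sub_eq_zero.1 h3).symm
  have hβW : β (2 • ph + mu) = 0 := comm_eig hT hWh hW0 (fun x => by
    rw [Derivation.commutator_apply, Derivation.commutator_apply, map_sub, cE, cF, cF, cE])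
  -- the weights `ph + k mu`
  have hWmu : Wt 𝒜 mu := ⟨y₁, hy₁⟩
  have hWmu' : Wt 𝒜 (-mu) := ⟨p, hφ₀.ya'⟩
  have hl : ∀ k : ℤ, ph ≠ k • mu := by
    intro k hk
    have e1 : k = 0 ∨ k = 1 := by
      by_contra hc
      push Not at hc
      refine hs (1 - k) (by omega) (by omega) ?_
      rw [hk, ← add_smul]
      have : k + (1 - k) = 1 := by ring
      rwa [this, one_smul]
    refine hs (-1 - k) (by omega) (by omega) ?_
    rw [hk, ← add_smul]
    have : k + (-1 - k) = -1 := by ring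
    rwa [this, neg_smul, one_smul]
  have hl' : ∀ k : ℤ, ph ≠ k • -mu := fun k hk => hl (-k) (by rw [hk, smul_neg, neg_smul])
  have hno1 : ∀ (z : FP 𝒜) (k : ℕ), ¬ z.Pi (ph + -mu + k • -mu) := by
    intro z k hk
    refine hs (-1 - k) (by omega) (by omega) ⟨z, ?_⟩
    have e1 : ph + (-1 - (k : ℤ)) • mu = ph + -mu + k • -mu := by
      rw [sub_smul, neg_smul, one_smul, natCast_zsmul, smul_neg]
      abel
    rwa [e1]
  have hno2 : ∀ k : ℕ, ¬ y.Pi (ph + mu + k • mu) := by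
    intro k hk
    rcases Nat.eq_zero_or_pos k with h0 | h0
    · subst h0
      rw [zero_smul, add_zero] at hk
      exact hcon hk
    · refine hs (1 + k) (by omega) (by omega) ⟨y, ?_⟩
      have e1 : ph + (1 + (k : ℤ)) • mu = ph + mu + k • mu := by
        rw [add_smul, one_smul, natCast_zsmul, add_assoc]
      rwa [e1]
  -- the value at `ph`
  have hβph : β ph = 0 := by
    by_cases hmy : y.Pi mu
    · obtain ⟨y'', n, ψ₀, hψ₀⟩ := exists_curve H y hmy
      obtain ⟨ψ₁, hψ₁, -⟩ := H490.exists_rev H hψ₀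
      obtain ⟨ψ₂, hψ₂, hrelψ⟩ := H490.exists_rev H hψ₁
      refine beta_zero H hψ₁ hψ₂ hrelψ hFh hEh' hT hl' (hno1 y'') ?_ hy
      rw [neg_neg]
      exact hno2
    · have hmu0 : mu ≠ 0 := by
        rintro rfl
        exact H.iso y₁.q y₁.ν y₁.nv y₁.fix hy₁
      refine beta_zero' H hFh hEh' hT (H224.field_vanish y.fix (neg_ne_zero.2 hmu0) hFh hna)
        (H224.field_vanish y.fix hmu0 hEh hmy) ?_ ?_ ?_ ?_ hy
      · have := hno1 y 0
        rwa [zero_smul, add_zero] at this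
      · rw [neg_neg]
        exact hcon
      · intro h0
        exact hl 1 (by rw [one_smul]; exact (eq_neg_of_add_eq_zero_left h0).trans (neg_neg _))
      · intro h0
        exact hl (-1) (by
          rw [neg_smul, one_smul]
          rw [neg_neg] at h0
          exact eq_neg_of_add_eq_zero_left h0)
  rw [map_add, map_nsmul, hβph, smul_zero, zero_add] at hβW
  exact hβmu hβW

end Vale.Agent.P280.H669

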